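import Vale.Agent.P284.H894.W.Final
import Vale.Agent.P284.H10.Uni
import Vale.Agent.P284.H10.Psi
import Vale.Agent.P284.H35.El
import Vale.Agent.P284.H35.TwVD
import Vale.Agent.P284.H977.Ex
import Vale.Agent.P284.H66.TwE
import Vale.Agent.P284.H730.Dens
import Vale.Agent.P284.H5.Poin
import Vale.Agent.P284.H731.Res
import Vale.Agent.P284.H639.TwIbp

/-! # P284, theorem A (helper894): assembly -/

noncomputable section

namespace Vale.Agent.P284.H894.A

open Vale.Agent.P284.H894.V Vale.Agent.P284.H894.W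

theorem exConclA : H409.A.ExConclA :=
  H977.exStmtA H66.TK.twKStmt H730.A.densStmt H639.Tw.ibpStmt H5.A.poinStmt H731.Res.resStmt

theorem elConcl : H409.A.ElConcl := H35.A9.elStmt exConclA

theorem uniConcl : H409.A.UniConcl :=
  (H10.uniStmt_of H10.psiStmt H35.A9.vdStmt) elConcl H119.R.rankStmt2 H10.s4Stmt2 H977.liftStmt

/-- Theorem A: every amenable quotient is virtually abelian. -/
theorem mainA : H409.A.MainA :=
  H409.A.mainA_of H639.V.v15Stmt albStmt2 H119.R.rankStmt2 fibConclQ H409.A.grpAStmt uniConcl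
    stkStmt H409.A.finAStmt H977.liftStmt

theorem mainPiA : H409.A.MainPiA := H5.A.piStmtA.1 mainA

end Vale.Agent.P284.H894.A
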